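import Vale.Agent.P359.FastCert.Data.Blk1
import Vale.Agent.P359.FastCert.Data.Blk2
import Vale.Agent.P359.FastCert.Data.Blk3
import Vale.Agent.P359.FastCert.Data.Blk4

/-! The blocks of the window certificate. -/

namespace Vale.Agent.P359.Fast

/-- The blocks. -/
noncomputable def blocks (k : ℕ) : Blk :=
  cond (Nat.blt k 100)
  (cond (Nat.blt k 50)
  (cond (Nat.blt k 25)
  (cond (Nat.blt k 12)
  (cond (Nat.blt k 6)
  (cond (Nat.blt k 3)
  (cond (Nat.blt k 1)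
  (blk0)
  (cond (Nat.blt k 2)
  (blk1)
  (blk2)))
  (cond (Nat.blt k 4)
  (blk3)
  (cond (Nat.blt k 5)
  (blk4)
  (blk5))))
  (cond (Nat.blt k 9)
  (cond (Nat.blt k 7)
  (blk6)
  (cond (Nat.blt k 8)
  (blk7)
  (blk8)))
  (cond (Nat.blt k 10)
  (blk9)
  (cond (Nat.blt k 11)
  (blk10)
  (blk11)))))
  (cond (Nat.blt k 18)
  (cond (Nat.blt k 15)
  (cond (Nat.blt k 13)
  (blk12)
  (cond (Nat.blt k 14)
  (blk13)
  (blk14)))
  (cond (Nat.blt k 16)
  (blk15)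
  (cond (Nat.blt k 17)
  (blk16)
  (blk17))))
  (cond (Nat.blt k 21)
  (cond (Nat.blt k 19)
  (blk18)
  (cond (Nat.blt k 20)
  (blk19)
  (blk20)))
  (cond (Nat.blt k 23)
  (cond (Nat.blt k 22)
  (blk21)
  (blk22))
  (cond (Nat.blt k 24)
  (blk23)
  (blk24))))))
  (cond (Nat.blt k 37)
  (cond (Nat.blt k 31)
  (cond (Nat.blt k 28)
  (cond (Nat.blt k 26)
  (blk25)
  (cond (Nat.blt k 27)
  (blk26)
  (blk27)))
  (cond (Nat.blt k 29)
  (blk28)
  (cond (Nat.blt k 30)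
  (blk29)
  (blk30))))
  (cond (Nat.blt k 34)
  (cond (Nat.blt k 32)
  (blk31)
  (cond (Nat.blt k 33)
  (blk32)
  (blk33)))
  (cond (Nat.blt k 35)
  (blk34)
  (cond (Nat.blt k 36)
  (blk35)
  (blk36)))))
  (cond (Nat.blt k 43)
  (cond (Nat.blt k 40)
  (cond (Nat.blt k 38)
  (blk37)
  (cond (Nat.blt k 39)
  (blk38)
  (blk39)))
  (cond (Nat.blt k 41)
  (blk40)
  (cond (Nat.blt k 42)
  (blk41)
  (blk42))))
  (cond (Nat.blt k 46)
  (cond (Nat.blt k 44)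
  (blk43)
  (cond (Nat.blt k 45)
  (blk44)
  (blk45)))
  (cond (Nat.blt k 48)
  (cond (Nat.blt k 47)
  (blk46)
  (blk47))
  (cond (Nat.blt k 49)
  (blk48)
  (blk49)))))))
  (cond (Nat.blt k 75)
  (cond (Nat.blt k 62)
  (cond (Nat.blt k 56)
  (cond (Nat.blt k 53)
  (cond (Nat.blt k 51)
  (blk50)
  (cond (Nat.blt k 52)
  (blk51)
  (blk52)))
  (cond (Nat.blt k 54)
  (blk53)
  (cond (Nat.blt k 55)
  (blk54)
  (blk55))))
  (cond (Nat.blt k 59)
  (cond (Nat.blt k 57)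
  (blk56)
  (cond (Nat.blt k 58)
  (blk57)
  (blk58)))
  (cond (Nat.blt k 60)
  (blk59)
  (cond (Nat.blt k 61)
  (blk60)
  (blk61)))))
  (cond (Nat.blt k 68)
  (cond (Nat.blt k 65)
  (cond (Nat.blt k 63)
  (blk62)
  (cond (Nat.blt k 64)
  (blk63)
  (blk64)))
  (cond (Nat.blt k 66)
  (blk65)
  (cond (Nat.blt k 67)
  (blk66)
  (blk67))))
  (cond (Nat.blt k 71)
  (cond (Nat.blt k 69)
  (blk68)
  (cond (Nat.blt k 70)
  (blk69)
  (blk70)))
  (cond (Nat.blt k 73)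
  (cond (Nat.blt k 72)
  (blk71)
  (blk72))
  (cond (Nat.blt k 74)
  (blk73)
  (blk74))))))
  (cond (Nat.blt k 87)
  (cond (Nat.blt k 81)
  (cond (Nat.blt k 78)
  (cond (Nat.blt k 76)
  (blk75)
  (cond (Nat.blt k 77)
  (blk76)
  (blk77)))
  (cond (Nat.blt k 79)
  (blk78)
  (cond (Nat.blt k 80)
  (blk79)
  (blk80))))
  (cond (Nat.blt k 84)
  (cond (Nat.blt k 82)
  (blk81)
  (cond (Nat.blt k 83)
  (blk82)
  (blk83)))
  (cond (Nat.blt k 85)
  (blk84)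
  (cond (Nat.blt k 86)
  (blk85)
  (blk86)))))
  (cond (Nat.blt k 93)
  (cond (Nat.blt k 90)
  (cond (Nat.blt k 88)
  (blk87)
  (cond (Nat.blt k 89)
  (blk88)
  (blk89)))
  (cond (Nat.blt k 91)
  (blk90)
  (cond (Nat.blt k 92)
  (blk91)
  (blk92))))
  (cond (Nat.blt k 96)
  (cond (Nat.blt k 94)
  (blk93)
  (cond (Nat.blt k 95)
  (blk94)
  (blk95)))
  (cond (Nat.blt k 98)
  (cond (Nat.blt k 97)
  (blk96)
  (blk97))
  (cond (Nat.blt k 99)
  (blk98)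
  (blk99))))))))
  (cond (Nat.blt k 150)
  (cond (Nat.blt k 125)
  (cond (Nat.blt k 112)
  (cond (Nat.blt k 106)
  (cond (Nat.blt k 103)
  (cond (Nat.blt k 101)
  (blk100)
  (cond (Nat.blt k 102)
  (blk101)
  (blk102)))
  (cond (Nat.blt k 104)
  (blk103)
  (cond (Nat.blt k 105)
  (blk104)
  (blk105))))
  (cond (Nat.blt k 109)
  (cond (Nat.blt k 107)
  (blk106)
  (cond (Nat.blt k 108)
  (blk107)
  (blk108)))
  (cond (Nat.blt k 110)
  (blk109)
  (cond (Nat.blt k 111)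
  (blk110)
  (blk111)))))
  (cond (Nat.blt k 118)
  (cond (Nat.blt k 115)
  (cond (Nat.blt k 113)
  (blk112)
  (cond (Nat.blt k 114)
  (blk113)
  (blk114)))
  (cond (Nat.blt k 116)
  (blk115)
  (cond (Nat.blt k 117)
  (blk116)
  (blk117))))
  (cond (Nat.blt k 121)
  (cond (Nat.blt k 119)
  (blk118)
  (cond (Nat.blt k 120)
  (blk119)
  (blk120)))
  (cond (Nat.blt k 123)
  (cond (Nat.blt k 122)
  (blk121)
  (blk122))
  (cond (Nat.blt k 124)
  (blk123)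
  (blk124))))))
  (cond (Nat.blt k 137)
  (cond (Nat.blt k 131)
  (cond (Nat.blt k 128)
  (cond (Nat.blt k 126)
  (blk125)
  (cond (Nat.blt k 127)
  (blk126)
  (blk127)))
  (cond (Nat.blt k 129)
  (blk128)
  (cond (Nat.blt k 130)
  (blk129)
  (blk130))))
  (cond (Nat.blt k 134)
  (cond (Nat.blt k 132)
  (blk131)
  (cond (Nat.blt k 133)
  (blk132)
  (blk133)))
  (cond (Nat.blt k 135)
  (blk134)
  (cond (Nat.blt k 136)
  (blk135)
  (blk136)))))
  (cond (Nat.blt k 143)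
  (cond (Nat.blt k 140)
  (cond (Nat.blt k 138)
  (blk137)
  (cond (Nat.blt k 139)
  (blk138)
  (blk139)))
  (cond (Nat.blt k 141)
  (blk140)
  (cond (Nat.blt k 142)
  (blk141)
  (blk142))))
  (cond (Nat.blt k 146)
  (cond (Nat.blt k 144)
  (blk143)
  (cond (Nat.blt k 145)
  (blk144)
  (blk145)))
  (cond (Nat.blt k 148)
  (cond (Nat.blt k 147)
  (blk146)
  (blk147))
  (cond (Nat.blt k 149)
  (blk148)
  (blk149)))))))
  (cond (Nat.blt k 175)
  (cond (Nat.blt k 162)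
  (cond (Nat.blt k 156)
  (cond (Nat.blt k 153)
  (cond (Nat.blt k 151)
  (blk150)
  (cond (Nat.blt k 152)
  (blk151)
  (blk152)))
  (cond (Nat.blt k 154)
  (blk153)
  (cond (Nat.blt k 155)
  (blk154)
  (blk155))))
  (cond (Nat.blt k 159)
  (cond (Nat.blt k 157)
  (blk156)
  (cond (Nat.blt k 158)
  (blk157)
  (blk158)))
  (cond (Nat.blt k 160)
  (blk159)
  (cond (Nat.blt k 161)
  (blk160)
  (blk161)))))
  (cond (Nat.blt k 168)
  (cond (Nat.blt k 165)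
  (cond (Nat.blt k 163)
  (blk162)
  (cond (Nat.blt k 164)
  (blk163)
  (blk164)))
  (cond (Nat.blt k 166)
  (blk165)
  (cond (Nat.blt k 167)
  (blk166)
  (blk167))))
  (cond (Nat.blt k 171)
  (cond (Nat.blt k 169)
  (blk168)
  (cond (Nat.blt k 170)
  (blk169)
  (blk170)))
  (cond (Nat.blt k 173)
  (cond (Nat.blt k 172)
  (blk171)
  (blk172))
  (cond (Nat.blt k 174)
  (blk173)
  (blk174))))))
  (cond (Nat.blt k 187)
  (cond (Nat.blt k 181)
  (cond (Nat.blt k 178)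
  (cond (Nat.blt k 176)
  (blk175)
  (cond (Nat.blt k 177)
  (blk176)
  (blk177)))
  (cond (Nat.blt k 179)
  (blk178)
  (cond (Nat.blt k 180)
  (blk179)
  (blk180))))
  (cond (Nat.blt k 184)
  (cond (Nat.blt k 182)
  (blk181)
  (cond (Nat.blt k 183)
  (blk182)
  (blk183)))
  (cond (Nat.blt k 185)
  (blk184)
  (cond (Nat.blt k 186)
  (blk185)
  (blk186)))))
  (cond (Nat.blt k 193)
  (cond (Nat.blt k 190)
  (cond (Nat.blt k 188)
  (blk187)
  (cond (Nat.blt k 189)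
  (blk188)
  (blk189)))
  (cond (Nat.blt k 191)
  (blk190)
  (cond (Nat.blt k 192)
  (blk191)
  (blk192))))
  (cond (Nat.blt k 196)
  (cond (Nat.blt k 194)
  (blk193)
  (cond (Nat.blt k 195)
  (blk194)
  (blk195)))
  (cond (Nat.blt k 198)
  (cond (Nat.blt k 197)
  (blk196)
  (blk197))
  (cond (Nat.blt k 199)
  (blk198)
  (blk199))))))))

end Vale.Agent.P359.Fast
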