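import Vale.Agent.P359.FastCert.Assemble
import Vale.Agent.P359.FastCert.Data.Tab
import Vale.Agent.P359.FastCert.Data.Blocks

/-! Kernel check of some window blocks. -/

namespace Vale.Agent.P359.Fast

theorem chunk2 : chunkCheck tab blocks 63 22 = true := by decide +kernel

end Vale.Agent.P359.Fast
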