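import Vale.Agent.P359.FastCert.Data.Tab
import Vale.Agent.P359.FastCert.Data.CovData

/-! Kernel check of the amplitude tables and of the channel budget. -/

namespace Vale.Agent.P359.Fast

theorem cov_fac : facCheck covTab = true := by decide +kernel

theorem cov_amp21 : ampCheck covTab 2 1 covTab.v21 16 = true := by decide +kernel

theorem cov_amp22 : ampCheck covTab 2 2 covTab.v22 23 = true := by decide +kernel

theorem cov_amp11 : ampCheck covTab 1 1 covTab.v11 17 = true := by decide +kernel

theorem tab_cov1 : cov1Check tab covTab = true := by decide +kernel

end Vale.Agent.P359.Fast
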