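import Vale.Agent.P359.FastCert.Data.Tab
import Vale.Agent.P359.FastCert.Data.CovData

/-! Kernel check of the coverage blocks. -/

namespace Vale.Agent.P359.Fast

theorem tab_cov2 : allTo 26 (fun L => cov2Check tab covTab L) = true := by decide +kernel

end Vale.Agent.P359.Fast
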