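import Vale.Agent.P359.FastCert.Data.Chk1
import Vale.Agent.P359.FastCert.Data.Chk2
import Vale.Agent.P359.FastCert.Data.Chk3
import Vale.Agent.P359.FastCert.Data.Chk4
import Vale.Agent.P359.FastCert.Data.Chk5
import Vale.Agent.P359.FastCert.Data.Chk6
import Vale.Agent.P359.FastCert.Data.Chk7
import Vale.Agent.P359.FastCert.Data.Chk8

/-! The window form of the tables is nonnegative. -/

namespace Vale.Agent.P359.Fast

theorem tab_par : parCheck tab = true := by decide +kernel

theorem tab_cover : coverCheck tab blocks 200 0 (Nat.shiftLeft (Nat.add tab.S 1) tab.J) = true := by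
  decide +kernel

theorem tab_pos (u : ℕ → Finset ℕ → ℝ) :
    0 ≤ winForm tab.S tab.J (cR tab) (wR tab) (gR tab) u := by
  refine winForm_nonneg (by decide +kernel) tab_par (NB := 200) (bs := blocks) (fun k hk => ?_) tab_cover u
  by_cases h1 : k < 63
  · exact chunkCheck_spec chunk1 (by omega) (by omega)
  by_cases h2 : k < 85
  · exact chunkCheck_spec chunk2 (by omega) (by omega)
  by_cases h3 : k < 88
  · exact chunkCheck_spec chunk3 (by omega) (by omega)
  by_cases h4 : k < 100
  · exact chunkCheck_spec chunk4 (by omega) (by omega)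
  by_cases h5 : k < 113
  · exact chunkCheck_spec chunk5 (by omega) (by omega)
  by_cases h6 : k < 116
  · exact chunkCheck_spec chunk6 (by omega) (by omega)
  by_cases h7 : k < 138
  · exact chunkCheck_spec chunk7 (by omega) (by omega)
  exact chunkCheck_spec chunk8 (by omega) (by omega)

end Vale.Agent.P359.Fast
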